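import Crest.Agent.X212.Msi61.Lt
import Crest.Agent.X212.Ixc61.Ch
import Crest.Agent.X212.Top36.Kap
import Crest.Agent.X212.End3.Pnt
import Crest.Agent.X212.An.Strat

/-!
# Row 212, MS-INST (helper61): the charts and their problems
-/

set_option autoImplicit false
set_option linter.unusedSectionVars false
noncomputable section
open scoped Manifold ContDiff Topology InnerProductSpace
open MeasureTheory Set Function Filter

namespace Crest.Agent.X212.Msi61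
open An M Cyf70 Mod61 Map77 Nk89 Nd18 Eqv71 Sob92 Prm93

section gen
variable {E : Type} [NormedAddCommGroup E] [NormedSpace ℝ E] [FiniteDimensional ℝ E]
  [MeasurableSpace E] [BorelSpace E]
  {HM : Type} [TopologicalSpace HM] {I : ModelWithCorners ℝ E HM} [I.Boundaryless]
  {M : Type} [TopologicalSpace M] [ChartedSpace HM M] [IsManifold I ∞ M]
  [MeasurableSpace M] [T2Space M] [BorelSpace M] [SecondCountableTopology M]
  {κ lam : Type} [Fintype κ] [Fintype lam] {r : ℕ} {T : Type} [NormedAddCommGroup T]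
  [NormedSpace ℝ T] {𝔉 : Mod61.Fam I M (Option κ) lam T} {δ R : ℝ} {X : Ends 𝔉 δ} {o : Ref 𝔉}

/-- a reference which does not move -/
theorem b0_of (l : X.Lit o R) (y : Pnt o r) (hW : ∀ t α, o.W t α =
    o.m.addC (𝔉.W0 o.m o.A0 t) fun x => idx (𝔉.S t x) (.id ℝ _) (α x)) :
    ∃ (o' : Ref 𝔉) (y' : Pnt o' r), o'.B0 ∧ X.Lit o' R ∧ y'.t = y.t ∧ y'.cfg = y.cfg ∧
      ∀ (P : End 𝔉) s t, P.sl o' s t = P.sl o s t := by
  let o' : Ref 𝔉 :=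
    { m := o.m, A0 := o.A0, Φ0 := o.Φ0, ok := o.ok, conn := o.conn, cp := o.cp, cρ := o.cρ,
      cj := o.cj, cA := o.cA, cΦ := o.cΦ, pos := o.pos }
  have : o'.B0 := ⟨rfl⟩
  have w : ∀ t α, o'.W t α = o.W t α := fun t α => by rw [hW, Ref.W, o'.A_eq]
  have s : ∀ (P : End 𝔉) s t, P.sl o' s t = P.sl o s t := fun P s t => by
    simp only [End.sl, w]; rfl
  refine ⟨o', ⟨y.α, y.φ, y.z, y.t, y.hα, y.hφ, y.ht⟩, this, ⟨l.le, fun a => ⟨fun t ht r hr => ?_,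
    fun t ht x => ?_⟩⟩, rfl, ?_, s⟩
  · rw [s, s]; exact (l.lit a).eq t ht r hr
  · rw [w]; exact (l.lit a).tmp t ht x
  · simp only [Pnt.cfg, w]; rfl

end gen

variable {κ lam : Type} [Fintype κ] [Fintype lam] {Y : Mf 3} [CompactSpace Y.M]
  {N : ND Y.M lam} {D : YD Y.I Y.M κ lam} {δ R : ℝ} {b : Bool} (h : Wd (D := D) N δ)
  {o : Ref (famZ ℝ D δ (spO b univ))} {q : YW Y.I Y.M →₀ ℝ}
  {c c' : Cfg (Y.M × ℝ) (Option κ) lam 0} {β : Bool → YC Y.M κ lam}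

section
include h

theorem Wd.okZ : OKZ D := Eqv71.okZ h.ok.ok Y.dim.le

theorem Wd.ad (y : Pnt o 0) : Ad0 y.cfg D.B D.G := y.ad0 (h.X b).ok

theorem Wd.adR (y : Pnt o 0) : Ad0 (rot (ang y.t) y.cfg) D.B D.G := ad0_rot (sm_ang _) (h.ad y)

/-- representation with a reference which does not move -/
theorem Wd.pnt {d : ℝ} {ζ : Bool → Circle} (hd : δ < d) (hc : c.Adm D.B D.G)
    (h0 : ∀ x ∉ spO b univ, c.Φ x = 0) (hβ : ∀ a, D.Adm (β a))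
    (hl : ∀ a, D.nk.ELim d c (β a) (ζ a) (bif a then atTop else atBot)) :
    ∃ (o : Ref (famZ ℝ D δ (spO b univ))) (R : ℝ) (y : Pnt o 0), o.B0 ∧ (h.X b).Lit o R ∧ y.t = 0 ∧
      IsoOn D.B D.Z univ c y.cfg ∧ ∀ a t, D.Eqv (β a) (((h.X b).P a).sl o (R + 1) t) := by
  obtain ⟨o, R, y, l, t0, rp, hW, e⟩ := End3.pnt (h.X b) 0 0 c β ζ d trivial hd (ad0 hc).adm0 h0 hβ hl
  obtain ⟨o', y', k1, k2, k3, k4, k5⟩ := b0_of l y hW
  exact ⟨o', R, y', k1, k2, k3.trans t0, k4 ▸ rp, fun a t => k5 _ _ _ ▸ e a t trivial⟩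

theorem Wd.ne : (famZ ℝ D δ (spO b univ)).Nat (eT N D) := fun t _ =>
  natOn_twP (sm_ang t) (subset_univ _) (Ixz30.nat_eZ h.ok)

theorem Wd.nτ (w : YW Y.I Y.M) : (famZ ℝ D δ (spO b univ)).Nat (τT N D w) := fun t _ =>
  natOn_twP (sm_ang t) (subset_univ _) (nat_q2 h.ok w)

end

theorem zr_nat {O : Set (Y.M × ℝ)} {p : PtX (Y.M × ℝ) (Option κ) lam 0 0 0}
    (hp : NatOn D.B D.G univ O p) (a : Ad0 c D.B D.G) (a' : Ad0 c' D.B D.G) (z : ∀ x ∉ O, c.Φ x = 0)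
    (z' : ∀ x ∉ O, c'.Φ x = 0) (e : IsoOn D.B D.Z univ c c') (H : p.Zr c univ O) : p.Zr c' univ O := by
  obtain ⟨u, ζ, e⟩ := e
  obtain ⟨k1, k2, -⟩ := hp c c' u ζ a.adm0 a'.adm0 z z' e
  exact ⟨fun x hx => by rw [k1 x hx, H.D x hx, map_zero, cs_zero], fun x hx => PiLp.ext fun s => by
    rw [k2 x hx, H.C x hx]; exact map_zero _, Subsingleton.elim _ _, Subsingleton.elim _ _⟩

theorem zr_sol {O : Set (Y.M × ℝ)} (H : c.Sol D.B D.G (N.pt D.nk q : Pt _ _ _ 0 0)) :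
    (eQ N D q).Zr c univ O :=
  ⟨fun x _ => H.D x, fun x _ => H.C x, Subsingleton.elim _ _, Subsingleton.elim _ _⟩

/-- the base point of a literal reference is standard -/
theorem Wd.std (l : (h.X b).Lit o R) (hβ : ∀ a, D.Adm (β a)) (t : ℝ)
    (e : ∀ a, D.Eqv (β a) (((h.X b).P a).sl o (R + 1) t)) :
    (XD.mk Y D N).bg.Std (noz (pt0 o 0 (t := t) trivial).cfg) β := by
  refine ⟨ad0_noz (h.ad _), fun a => ?_⟩
  have k := End14.adm_sl (h.X b).ok ((h.X b).okP a) (t := t) trivial l.le (l.lit a)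
  obtain ⟨w, ξ, k2⟩ := Ixc61.eq_pt0 (r := 0) (l.lit a) (t := t) trivial (IsoOn.symm h.ok.ok.B
    h.ok.ok.G isOpen_univ (ad0 (hβ a).adm) (ad0 k.adm) (e a)) (f := D.nk.ψ)
    (O := univ ×ˢ ((XD.mk Y D N).bg.E a).ht R) fun z hz => ⟨hz.2, rfl⟩
  exact ⟨w, ξ, R, hβ a, fun _ _ => by simp [Jv, YD.nk], k2⟩

theorem Wd.kap (l : (h.X b).Lit o R) {y : Pnt o 0} (hc : Ad0 c D.B D.G) (r : Rt c y) :
    (noz (pt0 o 0 y.ht).cfg).kap D.B D.G = c.kap D.B D.G := by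
  obtain ⟨u, ζ, e⟩ := r
  have k : ∫ x in univ, o.m.kd D.B D.Z y.cfg.W x ∂D.Z.μ =
      ∫ x in univ, o.m.kd D.B D.Z (pt0 o 0 y.ht).cfg.W x ∂D.Z.μ :=
    Top36.kapStmt (Z := cylM Y) _ _ _ (h.X b) o R 0 y univ l isClopen_univ subset_rfl
  rw [Measure.restrict_univ] at k
  have k' : (rot (ang y.t) y.cfg).kap D.B D.G = c.kap D.B D.G := h.okZ.kap_iso hc (h.adR y) e
  exact k.symm.trans k'

variable (S : N.CD D) (k : ℕ)

/-- charts -/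
structure Ch (i j : S.C) (b : Bool) : Type where
  o : Ref (famZ ℝ D δ (spO b univ))
  R : ℝ
  d : ℤ
  b0 : o.B0
  lit : (h.X b).Lit o R
  eqv : ∀ a t, D.Eqv (S.β (bif a then j else i)) (((h.X b).P a).sl o (R + 1) t)
  aff : Aff o (Fs (famZ ℝ D δ (spO b univ))) 0 0 0 (eT N D)
  sm : ∀ w, o.Sm (τT N D w)
  idx : ∀ (q : YW Y.I Y.M →₀ ℝ) (x : Pnt o 0), Idx k (eT N D + q.sum fun w c => c • τT N D w) x d
  loc : ∀ (q : YW Y.I Y.M →₀ ℝ) t a h1 h0, CylOK (δ := δ) h1 h0 k (eZ N D) ∧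
    ((h.X b).P a).Loc o k δ R (eT N D + q.sum fun w c => c • τT N D w) t h1 h0 (eZ N D)

attribute [instance] Ch.b0

variable {h S k} (hk : 7 ≤ k)

namespace Ch
variable {i j : S.C} (C : Ch h S k i j b)

/-- the theory -/
@[reducible] def th : Th (famZ ℝ D δ (spO b univ)) 0 0 0 (YW Y.I Y.M) :=
  thE (Grp76.gmE C.o (h.X b).ok hk 0 (h.X b).hdy) (eT N D) (τT N D) (fun _ => True)
    (C.d + 2 * (0 : ℕ) + Module.finrank ℝ ℝ - 2 * (0 : ℕ) - (0 : ℕ))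

theorem ok (Adm : (YW Y.I Y.M →₀ ℝ) → Prop) : (C.th hk).OK Adm :=
  have F := (h.X b).ok
  thE_ok F hk ((adj_rem F).rp C.aff) (fun w => (C.sm w).rp F) h.ne h.nτ
    (fun _ _ _ _ _ _ _ => trivial) (fun _ _ _ _ _ => .of_forall fun _ _ _ _ => trivial)
    fun q y _ _ _ => slc_gmE F hk y _ (C.aff.tot F C.sm q) (C.idx q y)

/-- the problem -/
abbrev Q : Prob (YW Y.I Y.M) := (C.ok hk fun _ => True).Q

theorem inn (y : Pnt C.o 0) : (C.Q hk).In ⟨(), y⟩ := by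
  have := h.ok.con
  refine ⟨End14.free (h.X b) C.o 0 y fun x _ => .inl ⟨true, (x.1, 2), ⟨trivial, ?_⟩, ?_⟩, trivial⟩
  · show (1 : ℝ) < 1 * 2
    norm_num
  · rw [PreconnectedSpace.connectedComponent_eq_univ]; trivial

theorem sol {y : Pnt C.o 0} (hc : c.Sol D.B D.G (N.pt D.nk q : Pt _ _ _ 0 0))
    (h0 : ∀ x ∉ spO b univ, c.Φ x = 0) (r : Rt c y) : (C.Q hk).Sol q ⟨(), y⟩ := by
  refine ((C.ok hk _).sol_iff q _).2 ⟨C.inn hk y, ?_⟩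
  show ((eT N D + q.sum fun w c => c • τT N D w) y.t).Zr y.cfg univ (spO b univ)
  rw [tot_eq]
  exact (zr_twP C.o.ok.Jsq).2 (zr_nat (nat_eQ h.ok q) (ad0 hc.toAdm) (h.adR y) h0
    (rot_off (y.off (h.X b).ok)) r (zr_sol hc))

/-- convergence in a chart -/
theorem near (hN : NearL N D δ) {d : ℝ} (hd : δ < d) {y₀ : Pnt C.o 0} {α : Type} {𝒰 : Ultrafilter α}
    {c : α → Cfg (Y.M × ℝ) (Option κ) lam 0} {c₀} (h0 : Ad0 c₀ D.B D.G) (r : Rt c₀ y₀)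
    (ha : ∀ᶠ m in (𝒰 : Filter α), Adm0 (c m) D.B D.G ∧ ∀ x ∉ spO b univ, (c m).Φ x = 0)
    (s : Stg D d 𝒰 c c₀ (S.β i) (S.β j)) : ∃ y : α → Pnt C.o 0, (∀ᶠ m in (𝒰 : Filter α), Rt (c m) (y m)) ∧
      Tendsto (fun m => (⟨(), y m⟩ : (C.Q hk).X)) 𝒰 ((C.Q hk).Near ⟨(), y₀⟩) := by
  obtain ⟨y, y₁, w, k1, k2, k3, k4, k5⟩ := hN h b C.o C.R d (fun a => S.β (bif a then j else i)) y₀ α
    𝒰 c c₀ C.lit hd (fun _ => ⟨(S.crit _).sol.toAdm, (S.crit _).tmp⟩) C.eqv h0.adm0 r ha s k hk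
  exact ⟨y, k5, ((C.Q hk).tendsto_near_of (x₀ := ⟨(), y₁⟩) y k4 (.of_forall fun _ =>
    (C.Q hk).eqv.refl _)).mono_right ((C.ok hk _).ax.near_le (C.inn hk y₁)
      ((C.Q hk).eqv.symm ⟨k1, w, 1, k2, k3⟩))⟩

end Ch

variable (h S) in
/-- the trajectory problems -/
def msR : S.MsR where
  Ic := Ch h S k
  P C := C.Q hk
  rep _ c x := ∃ s, Rt (sh s c) x.2

theorem off_ty (H : S.Ty c b) (s : ℝ) : ∀ x ∉ spO b univ, (sh s c).Φ x = 0 := by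
  cases b
  exacts [fun _ _ => H _ trivial, fun _ k => (k trivial).elim]

end Crest.Agent.X212.Msi61
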